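import Vale.Agent.P141.H736.FixBD
import Vale.Agent.P141.H652.NumR
import Vale.Agent.P141.H652.NumQ
import Vale.Agent.P141.H302.BornU
import Vale.Agent.P141.H548.LagU
import Vale.Agent.P141.H886.NumOf
import Vale.Agent.P141.H989.CrB3
import Vale.Agent.P141.H329.WinS
import Vale.Agent.P141.H74.CapBC
import Vale.Agent.P141.H457.CutBC

/-!
# P141, line (A), increasing part: the pair `(Bg, Cg)`, class assembly

`lBCg : H408.LBCg` from `H736.fix_BC2` and the numbers of the class.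
-/

namespace Vale.Agent.P141.H52

open Finset Matrix
open Vale.Agent.P075 (Ix)
open Vale.Agent.P141.PL (Pt iv ix cx mem_iv)
open Vale.Agent.P141.PL.H315 (Tri)
open Vale.Agent.P141.H48 (US ES BSl)
open Vale.Agent.P141.H305 (ClsM kapM)
open Vale.Agent.P141.H401 (StQ FibU FibP cb)
open Vale.Agent.P141.H103 (GW)
open Vale.Agent.P141.H677 (rt KT tr_T)
open Vale.Agent.P141.H505.Sk1 (Ch eT)
open Vale.Agent.P141.H652 (Th ah eb dB payS PbS)
open Vale.Agent.P141.H457 (rs SD PG)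
open Vale.Agent.P141.H419.PairB (gnV)
open Vale.Agent.P141.H419.WFamR (Wn Dn En nmH nmD nmE nmB c1)
open Vale.Agent.P141.H302 (tS Pr bN)
open Vale.Agent.P141.H548 (vN oN chg kinds)
open Vale.Agent.P141.H989.CrB (fCRB mB)
open Vale.Agent.P141.H170.Win (cut cut_in)
open Vale.Agent.P141.H874
open Vale.Agent.P141.H408
open Vale.Agent.P141.H808
open Vale.Agent.P141.H886

noncomputable section

open scoped Classical

set_option linter.unusedVariables false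

set_option linter.unusedSectionVars false

/-! ### The numbers -/

/-- energy of the time `0` at the scale `min q K` -/
def hN (q : ℕ) : NumF := fun ι _ _ p n ez F1 F2 F3 o K x s r U g u v Q1 Q2 Q3 x0 =>
  ∑ x1 ∈ iv K (cx K x).1, ∑ z ∈ iv K (cx K x).2.2,
    eT (cS p ez U K v F2 x0 0) (thS p s r o K x u x0) (min q K) x1 z

theorem sumL_h : SumL 1 hN := by
  refine PairQ.toU (PairQ.imp H548.enL' ?_)
  intro ι _ _ p n ez F1 F2 F3 o K x s r U g u v Q1 Q2 Q3 X h q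
  unfold H886.SumQ
  rw [one_mul]
  exact h 0 (min q K) 0 (Nat.zero_le _) (Nat.zero_le _) (min_le_right _ _)

/-- one lag -/
theorem sumL_at {σ : ℝ} {f : ℕ → NumF} (H : SumL σ f) (l : ℕ) : SumU σ (f l) := by
  refine PairU.map (M := 1) zero_le_one H ?_
  intro ι _ _ p n ez F1 F2 F3 o K x s r U g u v Q1 Q2 Q3 X ht hs hr hez hX h
  rw [one_mul]
  exact h l

/-- the weighted sum -/
def wF (f : ℕ → NumF) : NumF := fun ι _ _ p n ez F1 F2 F3 o K x s r U g u v Q1 Q2 Q3 x0 =>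
  ∑ l ∈ range (K + 1), (3 / 4 : ℝ) ^ l * f l ι p n ez F1 F2 F3 o K x s r U g u v Q1 Q2 Q3 x0

/-- sum of two numbers -/
def aF (f1 f2 : NumF) : NumF := fun ι _ _ p n ez F1 F2 F3 o K x s r U g u v Q1 Q2 Q3 x0 =>
  f1 ι p n ez F1 F2 F3 o K x s r U g u v Q1 Q2 Q3 x0 +
    f2 ι p n ez F1 F2 F3 o K x s r U g u v Q1 Q2 Q3 x0

theorem nn_a {f1 f2 : NumF} (h1 : NN f1) (h2 : NN f2) : NN (aF f1 f2) :=
  fun ι _ _ p n ez F1 F2 F3 o K x s r U g u v Q1 Q2 Q3 x0 ht hs hr hez =>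
    add_nonneg (h1 ι p n ez F1 F2 F3 o K x s r U g u v Q1 Q2 Q3 x0 ht hs hr hez)
      (h2 ι p n ez F1 F2 F3 o K x s r U g u v Q1 Q2 Q3 x0 ht hs hr hez)

theorem nn_w {f : ℕ → NumF} (h : ∀ l, NN (f l)) : NN (wF f) :=
  fun ι _ _ p n ez F1 F2 F3 o K x s r U g u v Q1 Q2 Q3 x0 ht hs hr hez =>
    sum_nonneg fun l _ => mul_nonneg (by positivity)
      (h l ι p n ez F1 F2 F3 o K x s r U g u v Q1 Q2 Q3 x0 ht hs hr hez)

theorem nn_h (q : ℕ) : NN (hN q) :=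
  fun ι _ _ p n ez F1 F2 F3 o K x s r U g u v Q1 Q2 Q3 x0 ht hs hr hez =>
    sum_nonneg fun x1 _ => sum_nonneg fun z _ => H302.eT_nn ht hs hr _ _ _ _

theorem nn_o (q : ℕ) : NN (oN q) :=
  fun ι _ _ p n ez F1 F2 F3 o K x s r U g u v Q1 Q2 Q3 x0 ht hs hr hez =>
    sum_nonneg fun x1 _ => sum_nonneg fun z _ => H302.eT_nn ht hs hr _ _ _ _

theorem nn_b (q : ℕ) : NN (bN q) :=
  fun ι _ _ p n ez F1 F2 F3 o K x s r U g u v Q1 Q2 Q3 x0 ht hs hr hez =>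
    sum_nonneg fun k _ => sum_nonneg fun x1 _ => sum_nonneg fun z _ => by
      split_ifs
      · exact H302.eT_nn ht hs hr _ _ _ _
      · exact le_rfl

theorem nn_c : NN (fCRB mB) :=
  fun ι _ _ p n ez F1 F2 F3 o K x s r U g u v Q1 Q2 Q3 x0 ht hs hr hez =>
    sum_nonneg fun k _ => sum_nonneg fun x1 _ => sum_nonneg fun z _ => by
      split_ifs
      · exact H302.eT_nn (x := x) (u := u) (o := o) ht hs hr _ _ _ _
      · exact le_rfl

section pt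

variable {ι : Type} [Fintype ι] [DecidableEq ι] {p : H401.Num} {s r : ℝ}

theorem kinds_nn (ht : 0 < p.t) (hs : 0 < s) (hr : 1 ≤ r) (o : ℤ) (K : ℕ) (x : Pt)
    (u : ℤ → ℤ → ι → ℝ) (x0 : ℤ) (a : ℕ) (x1 z : ℤ) (w : ι → ℝ) :
    0 ≤ kinds p s r o K x u x0 a x1 z w := by
  unfold H548.kinds
  have h1 := H548.zm_nonneg ht hs hr o K x u x0 a x1 z w
  have h2 := H548.ze_nonneg ht hs hr o K x u x0 a x1 z w
  have h3 := H548.zd_nonneg ht hs hr o K x u x0 a x1 z w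
  have h4 := H548.zq_nonneg ht hs hr o K x u x0 a x1 z w
  positivity

/-- the two raw terms -/
theorem raw2 (ht : 0 < p.t) (hs : 0 < s) (hr : 1 ≤ r) (o : ℤ) (K : ℕ) (x : Pt)
    (u : ℤ → ℤ → ι → ℝ) (x0 : ℤ) (a : ℕ) (x1 z : ℤ) (w : ι → ℝ) :
    (beI p r)⁻¹ *
      ((ah (p.lam s r) K (cx K x).2.1 (KT (p.lam s r) u x1) (o - 2) x0 x1 a (ix (a + 1) z) *ᵥ
        w) ⬝ᵥ
      (ah (p.lam s r) K (cx K x).2.1 (KT (p.lam s r) u x1) (o - 2) x0 x1 a (ix (a + 1) z) *ᵥ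
        w)) ≤ chg p s r o K x u x0 a x1 z w + kinds p s r o K x u x0 a x1 z w ∧
    (beI p r)⁻¹ * (w ⬝ᵥ
        eb (p.lam s r) K (cx K x).2.1 (KT (p.lam s r) u x1) (o - 2) x0 x1 (a + 1)
          (ix (a + 1) z) *ᵥ w) ≤
      chg p s r o K x u x0 a x1 z w + kinds p s r o K x u x0 a x1 z w := by
  have h0 := H548.raw_le (p := p) ht hs hr o K x u x0 a x1 z w
  have h5 := kinds_nn ht hs hr o K x u x0 a x1 z w
  have hb : 0 < (beI p r)⁻¹ := inv_pos.2 (Real.rpow_pos_of_pos (div_pos ht (by linarith)) _)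
  have h1 := mul_nonneg hb.le (H447.dot_self_nonneg (ah (p.lam s r) K (cx K x).2.1
    (KT (p.lam s r) u x1) (o - 2) x0 x1 a (ix (a + 1) z) *ᵥ w))
  have h2 := mul_nonneg hb.le (form_nonneg (H652.eb_psd (M := (cx K x).2.1)
    (tr_T (H401.Num.lam_pos (p := p) ht hs hr) K u x1) (o - 2) x0 x1 (a + 1) (ix (a + 1) z)) w)
  constructor <;> linarith

end pt

theorem nn_v (j q : ℕ) : NN (vN j q) :=
  fun ι _ _ p n ez F1 F2 F3 o K x s r U g u v Q1 Q2 Q3 x0 ht hs hr hez =>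
    sum_nonneg fun k _ => sum_nonneg fun x1 _ => sum_nonneg fun z _ =>
      add_nonneg (H548.chg_nonneg ht hs hr _ _ _ _ _ _ _ _ _) (kinds_nn ht hs hr _ _ _ _ _ _ _ _ _)

/-- **the number `E`** -/
def fE : NumF := aF (wF hN) (aF (oN 0) (aF (vN 1 0) (aF (wF (vN 0)) (aF (fCRB mB)
  (aF (bN 0) (wF fun q => bN (q + 1)))))))

theorem sumE : SumU 1 fE :=
  SumU.add sumL_h.wS (SumU.add (sumL_at H548.sumL_o 0) (SumU.add
    (sumL_at (H548.sumL_v le_rfl) 0) (SumU.add (H548.sumL_v (Nat.zero_le _)).wS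
    (SumU.add H989.CrB.sumU_mB (SumU.add H302.sumU_b0 H302.sumL_b1.wS)))))

theorem nn_E : NN fE :=
  nn_a (nn_w nn_h) (nn_a (nn_o 0) (nn_a (nn_v 1 0) (nn_a (nn_w fun l => nn_v 0 l) (nn_a nn_c
    (nn_a (nn_b 0) (nn_w fun l => nn_b (l + 1)))))))

/-- **the number `EB`** -/
def fB : NumF := fun ι _ _ p n ez F1 F2 F3 o K x s r U g u v Q1 Q2 Q3 x0 =>
  dB p s r U K x u F3 Q3 x0 +
    payS (beI p r) (p.lam s r) o K (cx K x) u (fun k => H652.bS p s r U K u F3 Q3 x0 k) x0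

theorem sumB : SumU (-1) fB := H652.EBU

theorem nn_B : NN fB :=
  fun ι _ _ p n ez F1 F2 F3 o K x s r U g u v Q1 Q2 Q3 x0 ht hs hr hez =>
    add_nonneg (H652.dB_nonneg x x0) (H652.payS_nonneg
      (Real.rpow_pos_of_pos (div_pos ht (by linarith)) _) (H401.Num.lam_pos (p := p) ht hs hr) _)

/-! ### Cut families -/

section ct

variable {κ : Type*} [Fintype κ] [DecidableEq κ]

theorem Wn_congr {N : ℕ} {R S : ℤ} {be : ℝ} {T : ℕ → ℤ → ℤ → Matrix κ κ ℝ}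
    {f g : ℤ → ℤ → κ → ℝ} (h : ∀ x ∈ iv N S, ∀ w ∈ iv N R, f x w = g x w) (a : ℕ) :
    Wn N R S be T f a = Wn N R S be T g a := by
  unfold H419.WFamR.Wn
  refine sum_congr rfl fun x hx => sum_congr rfl fun w hw => ?_
  rw [h x hx w hw]

theorem Dn_congr {N : ℕ} {R S : ℤ} {d : ℕ → ℤ → ℤ → Matrix κ κ ℝ}
    {f g : ℤ → ℤ → κ → ℝ} (h : ∀ x ∈ iv N S, ∀ w ∈ iv N R, f x w = g x w) (a : ℕ) :
    Dn N R S d f a = Dn N R S d g a := by
  unfold H419.WFamR.Dn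
  refine sum_congr rfl fun x hx => sum_congr rfl fun w hw => ?_
  rw [h x hx w hw]

theorem En_congr {N : ℕ} {R S : ℤ} {e : ℕ → ℤ → ℤ → Matrix κ κ ℝ}
    {f g : ℤ → ℤ → κ → ℝ} (h : ∀ x ∈ iv N S, ∀ w ∈ iv N R, f x w = g x w) (a : ℕ) :
    En N R S e f a = En N R S e g a := by
  unfold H419.WFamR.En
  refine sum_congr rfl fun x hx => sum_congr rfl fun w hw => ?_
  rw [h x hx w hw]

theorem rs_congr {N : ℕ} {R S : ℤ} {P : ℤ → ℤ → Prop} {k : ℕ}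
    {f g : ℤ → ℤ → κ → ℝ} (h : ∀ x ∈ iv N S, ∀ w ∈ iv N R, f x w = g x w) :
    ∀ x ∈ iv N S, ∀ w ∈ iv N R, rs P k f x w = rs P k g x w := by
  intro x hx w hw
  unfold H457.rs
  rw [h x hx w hw]

end ct


/-! ### The point -/

section point

variable {ι : Type} [Fintype ι] [DecidableEq ι] {p : H401.Num} {s r ez : ℝ} {o : ℤ} {K : ℕ}
  {x : Pt} {U : Tri} {u v : ℤ → ℤ → ι → ℝ} {F2 : ℕ → Pt → ℝ} {x0 : ℤ}

/-- the third path cut to the root -/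
abbrev cc' (p : H401.Num) (ez : ℝ) (U : Tri) (K : ℕ) (x : Pt) (v : ℤ → ℤ → ι → ℝ)
    (F2 : ℕ → Pt → ℝ) (x0 : ℤ) : ℕ → ℤ → ℤ → ι → ℝ :=
  cut K (cx K x).1 (cx K x).2.2 (cS p ez U K v F2 x0)

theorem cS_mm (k : ℕ) : cS p ez U K v F2 x0 (min k K) = cS p ez U K v F2 x0 k := by
  funext x1 z
  show C1 p ez U K v F2 x0 (min (min k K) K) z x1 = C1 p ez U K v F2 x0 (min k K) z x1
  rw [min_eq_left (min_le_right k K)]

theorem cc_in (k : ℕ) : ∀ x1 ∈ iv K (cx K x).1, ∀ z ∈ iv K (cx K x).2.2,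
    cc' p ez U K x v F2 x0 k x1 z = cS p ez U K v F2 x0 k x1 z := by
  intro x1 h1 z h2
  rw [show cc' p ez U K x v F2 x0 k x1 z = cS p ez U K v F2 x0 (min k K) x1 z from cut_in h1 h2,
    cS_mm]

theorem cc_pr : ∀ k < K, ∀ w m, ¬ Pr (cS p ez U K v F2 x0) k w m → ∀ y ∈ iv k m,
    cc' p ez U K x v F2 x0 (k + 1) y w = cc' p ez U K x v F2 x0 k y w := by
  intro k hk w m h y hy
  have h1 := H302.pr_not (N := K) k hk w m h y hy
  unfold cc' H170.Win.cut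
  rw [cS_mm, cS_mm, h1]


/-- the drift -/
abbrev eS (p : H401.Num) (s r : ℝ) (o : ℤ) (K : ℕ) (x : Pt) (u : ℤ → ℤ → ι → ℝ) (x0 : ℤ) :
    ℕ → ℤ → ℤ → Matrix ι ι ℝ :=
  fun a x1 m => eb (p.lam s r) K (cx K x).2.1 (KT (p.lam s r) u x1) (o - 2) x0 x1 (a + 1) m

/-- the move -/
abbrev dS (p : H401.Num) (s r : ℝ) (o : ℤ) (K : ℕ) (x : Pt) (u : ℤ → ℤ → ι → ℝ) (x0 : ℤ) :
    ℕ → ℤ → ℤ → Matrix ι ι ℝ :=
  fun a x1 m => ah (p.lam s r) K (cx K x).2.1 (KT (p.lam s r) u x1) (o - 2) x0 x1 a m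

variable {n : ℕ} {F1 F3 : ℕ → Pt → ℝ} {g : ℤ → ℤ → ℝ} {Q1 Q2 Q3 : ℕ → Pt → Prop}

theorem D_v (ht : 0 < p.t) (hs : 0 < s) (hr : 1 ≤ r) (j q : ℕ) :
    (beI p r)⁻¹ * ∑ k ∈ Ico 0 (K - q), Dn K (cx K x).2.2 (cx K x).1 (dS p s r o K x u x0)
      (cc' p ez U K x v F2 x0 (k + j)) (k + q) ≤
      vN j q ι p n ez F1 F2 F3 o K x s r U g u v Q1 Q2 Q3 x0 := by
  unfold H548.vN
  rw [Finset.mul_sum, range_eq_Ico]
  refine sum_le_sum fun k _ => ?_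
  rw [Dn_congr (cc_in (k + j))]
  unfold H419.WFamR.Dn
  rw [Finset.mul_sum]
  refine sum_le_sum fun x1 _ => ?_
  rw [Finset.mul_sum]
  exact sum_le_sum fun z _ => (raw2 ht hs hr o K x u x0 (k + q) x1 z _).1

theorem E_v (ht : 0 < p.t) (hs : 0 < s) (hr : 1 ≤ r) (j q : ℕ) :
    (beI p r)⁻¹ * ∑ k ∈ Ico 0 (K - q), En K (cx K x).2.2 (cx K x).1 (eS p s r o K x u x0)
      (cc' p ez U K x v F2 x0 (k + j)) (k + q) ≤
      vN j q ι p n ez F1 F2 F3 o K x s r U g u v Q1 Q2 Q3 x0 := by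
  unfold H548.vN
  rw [Finset.mul_sum, range_eq_Ico]
  refine sum_le_sum fun k _ => ?_
  rw [En_congr (cc_in (k + j))]
  unfold H419.WFamR.En
  rw [Finset.mul_sum]
  refine sum_le_sum fun x1 _ => ?_
  rw [Finset.mul_sum]
  exact sum_le_sum fun z _ => (raw2 ht hs hr o K x u x0 (k + q) x1 z _).2

theorem n_W0 : H912.wS K (nmH K (cx K x).2.2 (cx K x).1 (beI p r) (tS p s r o K x u x0)
      (cc' p ez U K x v F2 x0)) ≤
      wF hN ι p n ez F1 F2 F3 o K x s r U g u v Q1 Q2 Q3 x0 := by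
  unfold H912.wS wF
  refine sum_le_sum fun l hl => mul_le_mul_of_nonneg_left ?_ (by positivity)
  unfold H419.WFamR.nmH hN
  rw [Wn_congr (cc_in 0), show min l K = l from min_eq_left (by have := mem_range.1 hl; omega)]
  exact le_rfl

theorem n_W1 (ht : 0 < p.t) (hs : 0 < s) (hr : 1 ≤ r) :
    H912.wS K (fun q => (beI p r)⁻¹ * nmD K (cx K x).2.2 (cx K x).1 (dS p s r o K x u x0)
      (cc' p ez U K x v F2 x0) q) ≤
      wF (vN 0) ι p n ez F1 F2 F3 o K x s r U g u v Q1 Q2 Q3 x0 :=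
  sum_le_sum fun l _ => mul_le_mul_of_nonneg_left (D_v ht hs hr 0 l) (by positivity)

theorem n_W2 (ht : 0 < p.t) (hs : 0 < s) (hr : 1 ≤ r) :
    H912.wS K (fun q => (beI p r)⁻¹ * nmE K (cx K x).2.2 (cx K x).1 (eS p s r o K x u x0)
      (cc' p ez U K x v F2 x0) q) ≤
      wF (vN 0) ι p n ez F1 F2 F3 o K x s r U g u v Q1 Q2 Q3 x0 :=
  sum_le_sum fun l _ => mul_le_mul_of_nonneg_left (E_v ht hs hr 0 l) (by positivity)

theorem n_W3 (ht : 0 < p.t) (hs : 0 < s) (hr : 1 ≤ r) :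
    H912.wS K (nmB K (cx K x).2.2 (cx K x).1 (beI p r) (tS p s r o K x u x0)
      (Pr (cS p ez U K v F2 x0)) (cc' p ez U K x v F2 x0)) ≤
      wF (fun q => bN (q + 1)) ι p n ez F1 F2 F3 o K x s r U g u v Q1 Q2 Q3 x0 := by
  refine sum_le_sum fun l _ => mul_le_mul_of_nonneg_left ?_ (by positivity)
  refine le_trans (le_of_eq ?_) (H302.nmB_bN (x := x) (o := o) (x0 := x0) (u := u) (v := v)
    (F2 := F2) (U := U) (ez := ez) ht hs hr
    (fun k w m h => H302.pr_ch k w m h) l n F1 F3 g Q1 Q2 Q3)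
  unfold H419.WFamR.nmB
  exact sum_congr rfl fun k _ => Wn_congr (rs_congr (cc_in (k + 1))) _

theorem n_C0 : nmH K (cx K x).2.2 (cx K x).1 (beI p r) (tS p s r o K x u x0)
      (c1 K (cc' p ez U K x v F2 x0)) 0 ≤
      oN 0 ι p n ez F1 F2 F3 o K x s r U g u v Q1 Q2 Q3 x0 := by
  have e : ∀ x1 ∈ iv K (cx K x).1, ∀ z ∈ iv K (cx K x).2.2,
      c1 K (cc' p ez U K x v F2 x0) 0 x1 z = cS p ez U K v F2 x0 1 x1 z := by
    intro x1 h1 z h2
    unfold H419.WFamR.c1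
    rw [cc_in _ x1 h1 z h2, cS_mm]
  unfold H419.WFamR.nmH H548.oN
  rw [Wn_congr e, Nat.zero_min]
  exact le_rfl

theorem n_C1 (ht : 0 < p.t) (hs : 0 < s) (hr : 1 ≤ r) :
    (beI p r)⁻¹ * nmD K (cx K x).2.2 (cx K x).1 (dS p s r o K x u x0)
      (c1 K (cc' p ez U K x v F2 x0)) 0 ≤
      vN 1 0 ι p n ez F1 F2 F3 o K x s r U g u v Q1 Q2 Q3 x0 := by
  rw [H419.WFamR.nmD_c1]
  exact D_v ht hs hr 1 0

theorem n_C2 (ht : 0 < p.t) (hs : 0 < s) (hr : 1 ≤ r) :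
    (beI p r)⁻¹ * nmE K (cx K x).2.2 (cx K x).1 (eS p s r o K x u x0)
      (c1 K (cc' p ez U K x v F2 x0)) 0 ≤
      vN 1 0 ι p n ez F1 F2 F3 o K x s r U g u v Q1 Q2 Q3 x0 := by
  rw [H419.WFamR.nmE_c1]
  exact E_v ht hs hr 1 0

theorem n_C4 (ht : 0 < p.t) (hs : 0 < s) (hr : 1 ≤ r) :
    ∑ k ∈ Ico 0 K, Wn K (cx K x).2.2 (cx K x).1 (beI p r) (tS p s r o K x u x0)
      (rs (Pr (cS p ez U K v F2 x0) k) k (cc' p ez U K x v F2 x0 (k + 1))) k ≤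
      bN 0 ι p n ez F1 F2 F3 o K x s r U g u v Q1 Q2 Q3 x0 := by
  refine le_trans (le_of_eq ?_) (H302.Wn_bN (x := x) (o := o) (x0 := x0) (u := u) (v := v)
    (F2 := F2) (U := U) (ez := ez) ht hs hr
    (fun k w m h => H302.pr_ch k w m h) n F1 F3 g Q1 Q2 Q3)
  exact sum_congr rfl fun k _ => Wn_congr (rs_congr (cc_in (k + 1))) _

theorem n_C3 :
    ∑ k ∈ Ico 0 K, ∑ x1 ∈ iv K (cx K x).1, ∑ z ∈ iv K (cx K x).2.2,
      (if ∃ w, ix (k + 1) w = H677.cP o x0 (k + 1) - ix (k + 1) x1 - ix (k + 1) z ∧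
          PbS p s r U K u F3 Q3 x0 k w (ix k x1) then
        H736.wE (beI p r) (tS p s r o K x u x0) k (cc' p ez U K x v F2 x0 (k + 1)) x1 z else 0) ≤
      fCRB mB ι p n ez F1 F2 F3 o K x s r U g u v Q1 Q2 Q3 x0 := by
  unfold H989.CrB.fCRB
  refine sum_le_sum fun k _ => sum_le_sum fun x1 h1 => sum_le_sum fun z h2 => ?_
  unfold H736.wE
  rw [cc_in (k + 1) x1 h1 z h2]
  exact le_rfl

end point


/-- **The inequality at one `x0`.** -/
theorem fixBC : FixBC 2160000 2 fE fB := by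
  intro ι _ _ p n ez F1 F2 F3 o K x s r U g u v Q1 Q2 Q3 ha ha1 he0 he04 hk8 hk3 hc hd hd1 hKt he
    hcP hL ht ht1 hU1 hU3 hE2 ho hKn hs hr hcls q1 q2 q3 hez f1 f2 t' ht' x0 hx0 z J hz1 hz2 hJ
  have hy : 0 < p.t / r := div_pos ht (by linarith)
  have hl : 0 < p.lam s r := H401.Num.lam_pos (p := p) ht hs hr
  have hth : 0 < p.th s r := H401.Num.th_pos (p := p) ht hs hr
  have hbe : 0 < beI p r := Real.rpow_pos_of_pos hy _
  have hbe1 : beI p r ≤ 1 := H548.beI_le_one ht ht1 he0.le hr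
  have htau : 0 < tauI p s r := mul_pos two_pos hth
  have hg : 0 < gI p s r := mul_pos (Real.rpow_pos_of_pos hy _) htau
  have hz : 0 < z := hg.trans_le hz1
  have hE0 := nn_E ι p n ez F1 F2 F3 o K x s r U g u v Q1 Q2 Q3 x0 ht hs hr hez
  have hB0 := nn_B ι p n ez F1 F2 F3 o K x s r U g u v Q1 Q2 Q3 x0 ht hs hr hez
  -- the parts of the two numbers
  have m1 := nn_w nn_h ι p n ez F1 F2 F3 o K x s r U g u v Q1 Q2 Q3 x0 ht hs hr hez
  have m2 := nn_o 0 ι p n ez F1 F2 F3 o K x s r U g u v Q1 Q2 Q3 x0 ht hs hr hez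
  have m3 := nn_v 1 0 ι p n ez F1 F2 F3 o K x s r U g u v Q1 Q2 Q3 x0 ht hs hr hez
  have m4 := nn_w (fun l => nn_v 0 l) ι p n ez F1 F2 F3 o K x s r U g u v Q1 Q2 Q3 x0 ht hs hr hez
  have m5 := nn_c ι p n ez F1 F2 F3 o K x s r U g u v Q1 Q2 Q3 x0 ht hs hr hez
  have m6 := nn_b 0 ι p n ez F1 F2 F3 o K x s r U g u v Q1 Q2 Q3 x0 ht hs hr hez
  have m7 := nn_w (fun l => nn_b (l + 1)) ι p n ez F1 F2 F3 o K x s r U g u v Q1 Q2 Q3 x0 ht hs hr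
    hez
  have hEe : fE ι p n ez F1 F2 F3 o K x s r U g u v Q1 Q2 Q3 x0 =
      wF hN ι p n ez F1 F2 F3 o K x s r U g u v Q1 Q2 Q3 x0 +
      (oN 0 ι p n ez F1 F2 F3 o K x s r U g u v Q1 Q2 Q3 x0 +
      (vN 1 0 ι p n ez F1 F2 F3 o K x s r U g u v Q1 Q2 Q3 x0 +
      (wF (vN 0) ι p n ez F1 F2 F3 o K x s r U g u v Q1 Q2 Q3 x0 +
      (fCRB mB ι p n ez F1 F2 F3 o K x s r U g u v Q1 Q2 Q3 x0 +
      (bN 0 ι p n ez F1 F2 F3 o K x s r U g u v Q1 Q2 Q3 x0 +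
      wF (fun q => bN (q + 1)) ι p n ez F1 F2 F3 o K x s r U g u v Q1 Q2 Q3 x0))))) := rfl
  have hBe : fB ι p n ez F1 F2 F3 o K x s r U g u v Q1 Q2 Q3 x0 =
      dB p s r U K x u F3 Q3 x0 +
      payS (beI p r) (p.lam s r) o K (cx K x) u (fun k => H652.bS p s r U K u F3 Q3 x0 k) x0 := rfl
  have m8 := H652.dB_nonneg (p := p) (s := s) (r := r) (U := U) (K := K) (u := u) (F3 := F3)
    (Q3 := Q3) x x0
  have m9 : 0 ≤ payS (beI p r) (p.lam s r) o K (cx K x) u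
      (fun k => H652.bS p s r U K u F3 Q3 x0 k) x0 := H652.payS_nonneg hbe hl _
  generalize hEd : fE ι p n ez F1 F2 F3 o K x s r U g u v Q1 Q2 Q3 x0 = E at hE0 hEe ⊢
  generalize hBd : fB ι p n ez F1 F2 F3 o K x s r U g u v Q1 Q2 Q3 x0 = EB at hB0 hBe ⊢
  have hT : H419.Wt (tS p s r o K x u x0) (eS p s r o K x u x0) (dS p s r o K x u x0) :=
    H652.wt_Th (fun y => tr_T hl K u y) (cx K x).2.1 (o - 2) x0
  refine (H329.WinBC.pBC_cls ht hs hr ez U o K x u v F2 F3 Q3 htau hz x0).trans ?_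
  rw [sum_congr rfl fun k hk => H457.gnV_ext (be := beI p r) (s := z ^ 2)
    (T := tS p s r o K x u x0) (fun k => H652.bS p s r U K u F3 Q3 x0 k)
    (fun k => H652.bS p s r U K u F3 Q3 x0 k) (fun k => cS p ez U K v F2 x0 k)
    (cc' p ez U K x v F2 x0) (mem_Ico.1 hk).2 (H677.cP o x0 (k + 1)) (fun _ _ _ _ => rfl)
    (fun x1 h1 w h2 => (cc_in (k + 1) x1 h1 w h2).symm)]
  have main := H736.fix_BC2 hbe hbe1 (s := z ^ 2) (q := p.th s r ^ 2) (τ := 2) (by positivity)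
    (by positivity) (by norm_num) le_rfl hT
    (fun k y m => H652.Th_le_two (tr_T hl K u y) _ _ _ _ _) (N := K)
    (b := fun k => H652.bS p s r U K u F3 Q3 x0 k) (c := cc' p ez U K x v F2 x0)
    (Pb := PbS p s r U K u F3 Q3 x0) (Pc := Pr (cS p ez U K v F2 x0))
    (H652.PbS_off x0) cc_pr (H652.bS_capk hth x0) (H652.bS_capk1 hth x0) (H652.bS_capN hth x0)
    (C := cCI p s r ^ 2)
    (fun k a n' m h1 h2 => H74.CapBC.cut_capX ht ht1 hd1 he0.le hs hr hez hKn hcls.toCls q2 x0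
      (h1.trans h2.le) h2 (by omega) n' m)
    (fun k a n' m h1 h2 => H74.CapBC.cut_capX ht ht1 hd1 he0.le hs hr hez hKn hcls.toCls q2 x0
      (h1.trans h2.le) h2 (by omega) n' m)
    (J := J) (by nlinarith [sq_nonneg (cCI p s r)]) (R₁ := (cx K x).2.1) (S₁ := (cx K x).1)
    (T₁ := (cx K x).2.2) (H677.cP_pl ho x0) (E := E) (EB := EB) hE0 hB0
    ((H652.bS_hB1 x x0).trans (by linarith)) ((H652.bS_hB2 x x0).trans (by linarith))
    ((H652.pay_hB3 hbe hl _).trans (by linarith)) ((H652.pay_hB4 hbe _).trans (by linarith))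
    ((n_C0 (n := n) (F1 := F1) (F3 := F3) (g := g) (Q1 := Q1) (Q2 := Q2) (Q3 := Q3)).trans
      (by linarith))
    ((n_C1 (n := n) (F1 := F1) (F3 := F3) (g := g) (Q1 := Q1) (Q2 := Q2) (Q3 := Q3)
      ht hs hr).trans (by linarith))
    ((n_C2 (n := n) (F1 := F1) (F3 := F3) (g := g) (Q1 := Q1) (Q2 := Q2) (Q3 := Q3)
      ht hs hr).trans (by linarith))
    ((n_C3 (n := n) (F1 := F1) (g := g) (Q1 := Q1) (Q2 := Q2)).trans (by linarith))
    ((n_C4 (n := n) (F1 := F1) (F3 := F3) (g := g) (Q1 := Q1) (Q2 := Q2) (Q3 := Q3)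
      ht hs hr).trans (by linarith))
    ((n_W0 (n := n) (F1 := F1) (F3 := F3) (g := g) (Q1 := Q1) (Q2 := Q2) (Q3 := Q3)).trans
      (by linarith))
    ((n_W1 (n := n) (F1 := F1) (F3 := F3) (g := g) (Q1 := Q1) (Q2 := Q2) (Q3 := Q3)
      ht hs hr).trans (by linarith))
    ((n_W2 (n := n) (F1 := F1) (F3 := F3) (g := g) (Q1 := Q1) (Q2 := Q2) (Q3 := Q3)
      ht hs hr).trans (by linarith))
    ((n_W3 (n := n) (F1 := F1) (F3 := F3) (g := g) (Q1 := Q1) (Q2 := Q2) (Q3 := Q3)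
      ht hs hr).trans (by linarith))
  refine le_trans main ?_
  have ht2 : p.th s r ^ 2 ≤ tauI p s r ^ 2 := by
    unfold H408.tauI
    nlinarith [sq_nonneg (p.th s r)]
  have e1 : (18 : ℝ) * (120000 * ((J : ℝ) + 1) ^ 3) = 2160000 * ((J : ℝ) + 1) ^ 3 := by ring
  rw [e1]
  refine mul_le_mul_of_nonneg_left (add_le_add (Real.sqrt_le_sqrt ?_) ?_) (by positivity)
  · exact mul_le_mul_of_nonneg_left (mul_le_mul_of_nonneg_right ht2 hB0) (by positivity)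
  · exact mul_le_mul_of_nonneg_right ht2 hE0

/-- **The numbers of the pair.** -/
theorem numBC : NumBC 2160000 2 := numBC_of sumE sumB nn_E nn_B fixBC

/-- **The leaf `LBCg`.** -/
theorem lBCg : H408.LBCg := lbc_end (by norm_num) (by norm_num) numBC

end

end Vale.Agent.P141.H52
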